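/-!
# Row 160 (S0241): blueprint.  The free Ising state on the `d`-regular tree is a factor of i.i.d. for
`(d-1) θ² ≤ 1`, `θ = tanh β`.

## Model (`Defs`)
Probability space `Om V = Idx V → I × Bool` with product measure `mu V`.  Edge signs `eta` (i.i.d., mean `θ`)
and a root bit give Ising spins `spin v`.  Every vertex `v` has slots `a = (v, j)`, `j ∈ ℕ`, with a random
time `T a = j + 2 s_a` and amplitude `eps a ∈ [0,1/2]` (`0` when `s_a ≥ 1/2`; `= T a / 2` in round `0`).
At time `T a` we see `w a ∈ [-1,1]` with density `(1 + eps * spin * w)/2`.  Given what is seen before time `r`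
the spins are Ising with external field `Y r` (`Y v = ∑ artanh (eps * w)`), so
`E[spin v | past] = mag (Y r) v`, computed by the cavity recursion (`cav`; `PF`, `Levy`).
The innovation `U a = Ff (eps * mag) (w a)` is uniform and independent of the past (`Innov`); hence the
labels `L v = (s_(v,j), U (v,j))_j` are i.i.d. (`Labels`).  GOAL: `spin o` is a function of `L` (`Psi`); then
`Factor` makes the map equivariant everywhere and `Ising` identifies the law.

## Uniqueness argument
`NN R = E Var(mag(R) o | labels revealed before R)`.  The martingale `mag(r) o` is the `L²` sum of its jumps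
`cov(o,u) * gj(eps, mag u, U)` (`Telescope`, `Tail`, `Expand`).  Replacing `cov`, `mag u` by their conditional
expectations given the labels gives a label-measurable competitor, so (`Subst`, `Compet`, `StepIneq`)
`NN t ≤ NN s + 32 (t-s) min(t,1)² ∑_u term u`, where `term u` is evaluated at a uniform time `ρ ∈ [s,t]`.
On a tree `cov(o,u) = θ^k exp (-cost)`, `cost = ∑ edge costs + 2 vertex costs ≥ 0` (`Cav`).
`term u` (`Term`, `Bad`): if `cost ≥ s₀ ~ y k` then the variance of `exp(-cost)` is `≤ e^{-2 s₀} Var(cost)` and
`Var(cost) ≲ k * NA` by the spectral gap of the Bernoulli action (`Anova`, `Decay`, `Var2`); the event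
`cost < 2 s₀` has a large-deviation bound (`LD`) and is decoupled from any invariant weight by averaging over
`2^n` independent subtrees (`Decouple`).  At criticality `y ~ r^{3/2}` (`Static2`), the cavity field is
`≤ r^{1/3}` up to a stretched-exponential tail (`Mgf`), which gives `NA ≲ r^{2/3} N + tiny` (`Var`).  Summing
(`MainEst`, `Regime`): `NN' ≤ ℒ(t) (Λ NN + e^{-Λ})` for all `Λ ≥ 1` with `ℒ` integrable at `0`, and
`NN s ≤ C s`; Gronwall/Osgood (`Calc3`) gives `NN = 0`.  Finally `mag(n) o → spin o` in `L²` (`Psi`).

## Rules for contributors
Each file has one owner (table `tasks`, rid 160).  Fill in the `sorry`s of your file; keep every statement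
and name (you may add lemmas, private helpers, or new files `R160/<YourFile>Aux*.lean`, and add imports of
files that are earlier in the import order).  You may use the (possibly still sorried) lemmas of the files
you import.  If a statement is false or awkward, message helper46 at once.
-/
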